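import Vale.Agent.P101.Lit.Flip.Defs
import Vale.Agent.P101.Lit.Model.Flow
import Vale.Agent.P101.Lit.Flip.Main.Legs

/-! P101: the approximate half flip, from a flow. -/

namespace Vale.Agent.P101.Lit

open scoped unitInterval ComplexOrder Kronecker
open HalfFlip

variable {p q : ℕ}

theorem kron₁_eq_legL (F : CStarMatrix (Ix p q) (Ix p q) ℂ) : kron₁ F = legL _ F := by
  ext X Y; simp [kron₁, legL_apply, Matrix.one_apply]

theorem kron₂_eq_legR (F : CStarMatrix (Ix p q) (Ix p q) ℂ) : kron₂ F = legR _ F := by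
  ext X Y; simp [kron₂, legR_apply, Matrix.one_apply]

theorem mem_leftEnd {m : CStarMatrix (Ix p q) (Ix p q) ℂ}
    (h : IsLeftEnd p q fun x y => m x y) : m ∈ leftEnd (Fin p) (Fin q) := by
  obtain ⟨a, ha⟩ := h
  refine ⟨Matrix.of a, CStarMatrix.ext fun x y => (ha x y).trans ?_⟩
  simp [Matrix.one_apply]

theorem mem_rightEnd {m : CStarMatrix (Ix p q) (Ix p q) ℂ}
    (h : IsRightEnd p q fun x y => m x y) : m ∈ rightEnd (Fin p) (Fin q) := by
  obtain ⟨a, ha⟩ := h
  refine ⟨Matrix.of a, CStarMatrix.ext fun x y => (ha x y).trans ?_⟩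
  simp [Matrix.one_apply]

theorem isLeftEnd_of_rel {m : Ix p q → Ix p q → ℂ}
    (h : ∀ j k x y, (if y.2 = k then m x (y.1, j) else 0) = if x.2 = j then m (x.1, k) y else 0) :
    IsLeftEnd p q m := by
  rcases isEmpty_or_nonempty (Fin q) with hq | ⟨⟨j₀⟩⟩
  · exact ⟨fun _ _ => 0, fun x => isEmptyElim x.2⟩
  refine ⟨fun i i' => m (i, j₀) (i', j₀), fun x y => ?_⟩
  by_cases hxy : x.2 = y.2
  · have := h x.2 j₀ x (y.1, j₀)
    simp only [if_true] at this
    show m x y = _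
    rw [if_pos hxy]
    show m x y = m (x.1, j₀) (y.1, j₀)
    rw [← this, hxy]
  · simpa [if_neg hxy] using h y.2 y.2 x y

theorem isRightEnd_of_rel {m : Ix p q → Ix p q → ℂ}
    (h : ∀ j k x y, (if y.1 = k then m x (j, y.2) else 0) = if x.1 = j then m (k, x.2) y else 0) :
    IsRightEnd p q m := by
  rcases isEmpty_or_nonempty (Fin p) with hp | ⟨⟨i₀⟩⟩
  · exact ⟨fun _ _ => 0, fun x => isEmptyElim x.1⟩
  refine ⟨fun j j' => m (i₀, j) (i₀, j'), fun x y => ?_⟩
  by_cases hxy : x.1 = y.1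
  · have := h x.1 i₀ x (i₀, y.2)
    simp only [if_true] at this
    rw [if_pos hxy]
    show m x y = m (i₀, x.2) (i₀, y.2)
    rw [← this, hxy]
  · simpa [if_neg hxy] using h y.1 y.1 x y

/-- A matrix unit of `1 ⊗ M_q`. -/
noncomputable def unitR (j k : Fin q) : CStarMatrix (Ix p q) (Ix p q) ℂ :=
  CStarMatrix.ofMatrix ((1 : Matrix (Fin p) (Fin p) ℂ) ⊗ₖ Matrix.single j k 1)

/-- A matrix unit of `M_p ⊗ 1`. -/
noncomputable def unitL (j k : Fin p) : CStarMatrix (Ix p q) (Ix p q) ℂ :=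
  CStarMatrix.ofMatrix (Matrix.single j k 1 ⊗ₖ (1 : Matrix (Fin q) (Fin q) ℂ))

theorem left_of_commute₁ {X : Mat2 p q}
    (h : ∀ y ∈ rightEnd (Fin p) (Fin q), Commute X (legL _ y)) (a b : Ix p q) :
    IsLeftEnd p q fun x y => X (x, a) (y, b) :=
  isLeftEnd_of_rel fun j k x y => by
    have := congrFun (congrFun (h (unitR j k) ⟨_, rfl⟩).eq (x, a)) (y, b)
    simpa [CStarMatrix.mul_apply, legL_apply, unitR, Fintype.sum_prod_type, Matrix.one_apply,
      Matrix.single_apply, eq_comm, ite_and] using this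

theorem right_of_commute₁ {X : Mat2 p q}
    (h : ∀ y ∈ leftEnd (Fin p) (Fin q), Commute X (legL _ y)) (a b : Ix p q) :
    IsRightEnd p q fun x y => X (x, a) (y, b) :=
  isRightEnd_of_rel fun j k x y => by
    have := congrFun (congrFun (h (unitL j k) ⟨_, rfl⟩).eq (x, a)) (y, b)
    simpa [CStarMatrix.mul_apply, legL_apply, unitL, Fintype.sum_prod_type, Matrix.one_apply,
      Matrix.single_apply, eq_comm, ite_and] using this

theorem left_of_commute₂ {X : Mat2 p q}
    (h : ∀ y ∈ rightEnd (Fin p) (Fin q), Commute X (legR _ y)) (x y : Ix p q) :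
    IsLeftEnd p q fun a b => X (x, a) (y, b) :=
  isLeftEnd_of_rel fun j k a b => by
    have := congrFun (congrFun (h (unitR j k) ⟨_, rfl⟩).eq (x, a)) (y, b)
    simpa [CStarMatrix.mul_apply, legR_apply, unitR, Fintype.sum_prod_type, Matrix.one_apply,
      Matrix.single_apply, eq_comm, ite_and] using this

theorem right_of_commute₂ {X : Mat2 p q}
    (h : ∀ y ∈ leftEnd (Fin p) (Fin q), Commute X (legR _ y)) (x y : Ix p q) :
    IsRightEnd p q fun a b => X (x, a) (y, b) :=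
  isRightEnd_of_rel fun j k a b => by
    have := congrFun (congrFun (h (unitL j k) ⟨_, rfl⟩).eq (x, a)) (y, b)
    simpa [CStarMatrix.mul_apply, legR_apply, unitL, Fintype.sum_prod_type, Matrix.one_apply,
      Matrix.single_apply, eq_comm, ite_and] using this

theorem exists_flip {p q : ℕ} {G : Set (St ℂ p q)} (hG : G.Finite) {ε : ℝ} (hε : 0 < ε)
    {u : Amb ℂ p q} (hu : IsFlow G ε u) :
    ∃ W : C(I × I, Mat2 p q), IsFlip G (8 * ε) W := by
  obtain ⟨hu0, huU, huG⟩ := hu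
  set V := Set.IccExtend (zero_le_one' ℝ) u with hVdef
  have hVc : Continuous V := u.continuous.Icc_extend'
  have hV0 : V 0 = 1 := (Set.IccExtend_left _ _).trans hu0
  obtain ⟨W, hWU, h0L, h1L, h0R, h1R, hW⟩ :=
    exists_halfFlip (a := Fin p) (b := Fin q) (V := V) (fun x => huU _) hV0 hVc
  refine ⟨⟨fun z => W ((z.1 : ℝ), (z.2 : ℝ)), by fun_prop⟩, fun z => hWU _,
    fun t a b => left_of_commute₁ (h0L t) a b,
    fun t a b => right_of_commute₁ (h1L t t.2.2) a b,
    fun s x y => left_of_commute₂ (h0R s) x y,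
    fun s x y => right_of_commute₂ (h1R s s.2.2) x y, fun g hg s t => ?_⟩
  set F := Set.IccExtend (zero_le_one' ℝ) ((g : Amb ℂ p q) : I → _) with hF
  have hval : ∀ x : I, F (x : ℝ) = (g : Amb ℂ p q) x := fun x => Set.IccExtend_val _ _ x
  have hF0 : F 0 = (g : Amb ℂ p q) 0 := Set.IccExtend_left _ _
  have hF1 : F 1 = (g : Amb ℂ p q) 1 := Set.IccExtend_right _ _
  have key := hW F ε (hF0 ▸ mem_leftEnd g.2.1) (hF1 ▸ mem_rightEnd g.2.2) (fun x hx => ?_)
    s s.2 t t.2
  · rw [kron₁_eq_legL, kron₂_eq_legR, ← hval, ← hval]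
    exact key.trans (by linarith)
  · have : F x = (g : Amb ℂ p q) ⟨x, hx⟩ := hval ⟨x, hx⟩
    rw [this, hF0, hVdef, Set.IccExtend_of_mem _ _ hx, norm_sub_rev]
    exact huG g hg _

end Vale.Agent.P101.Lit
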