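import Vale.Agent.P101.Lit.Basic

/-! P101: two copies of `M_p ⊗ M_q`, and unitary valued functions on the square. -/

namespace Vale.Agent.P101.Lit

open scoped unitInterval ComplexOrder

/-- `M_pq ⊗ M_pq`. -/
abbrev Mat2 (p q : ℕ) := CStarMatrix (Ix p q × Ix p q) (Ix p q × Ix p q) ℂ

/-- `F ⊗ 1`. -/
noncomputable def kron₁ {p q : ℕ} (F : CStarMatrix (Ix p q) (Ix p q) ℂ) : Mat2 p q :=
  CStarMatrix.ofMatrix <| Matrix.of fun X Y => if X.2 = Y.2 then F X.1 Y.1 else 0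

/-- `1 ⊗ F`. -/
noncomputable def kron₂ {p q : ℕ} (F : CStarMatrix (Ix p q) (Ix p q) ℂ) : Mat2 p q :=
  CStarMatrix.ofMatrix <| Matrix.of fun X Y => if X.1 = Y.1 then F X.2 Y.2 else 0

/-- `W` is a unitary of `I(p,q) ⊗ I(p,q)` carrying `g ⊗ 1` to `1 ⊗ g` up to `ε` for `g ∈ G`. -/
def IsFlip {p q : ℕ} (G : Set (St ℂ p q)) (ε : ℝ) (W : C(I × I, Mat2 p q)) : Prop :=
  (∀ z, W z ∈ unitary (Mat2 p q)) ∧
    (∀ t a b, IsLeftEnd p q fun x y => W (0, t) (x, a) (y, b)) ∧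
    (∀ t a b, IsRightEnd p q fun x y => W (1, t) (x, a) (y, b)) ∧
    (∀ s x y, IsLeftEnd p q fun a b => W (s, 0) (x, a) (y, b)) ∧
    (∀ s x y, IsRightEnd p q fun a b => W (s, 1) (x, a) (y, b)) ∧
    ∀ g ∈ G, ∀ s t, ‖W (s, t) * kron₁ ((g : Amb ℂ p q) s) * star (W (s, t))
      - kron₂ ((g : Amb ℂ p q) t)‖ ≤ ε

end Vale.Agent.P101.Lit
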